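import Vale.Agent.P286EB.QP
import Vale.Agent.P286EN.Adj

/-!
# The algebra generated by a projector and a square root
-/

set_option linter.unusedSectionVars false

namespace Vale.Agent.P286ET8

open Matrix Vale.Agent.P286 Vale.Agent.P286E Vale.Agent.P286EN Vale.Agent.P286EB

noncomputable section

attribute [-instance] HahnSeries.powerSeriesAlgebra

variable {A : Type} [CommRing A] [Algebra ℂ A] {N : ℕ} {E : Ell}

theorem Ps_scal (c : A) (g : PowerSeries ℂ) :
    Ps (-(c • (1 : Matrix (Fin N) (Fin N) A))) g =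
      Ps (N := 1) (-(of fun _ _ => c)) g 0 0 • (1 : Matrix (Fin N) (Fin N) (Ls A)) := by
  have h : ∀ (M : ℕ) (k : ℕ), (-(c • (1 : Matrix (Fin M) (Fin M) A))) ^ k = (-c) ^ k • 1 := by
    intro M k
    rw [← neg_smul, smul_pow, one_pow]
  have h1 : (of fun _ _ => c : Matrix (Fin 1) (Fin 1) A) = c • 1 := by
    ext i j
    rw [Subsingleton.elim i j]
    simp
  ext1 i j
  rw [Matrix.smul_apply, Ps_apply, Ps_apply, h1]
  simp only [h, Matrix.smul_apply, Matrix.one_apply_eq]
  by_cases e : i = j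
  · subst e
    simp
  · rw [Matrix.one_apply_ne e, Matrix.one_apply_ne e, smul_zero, ← map_zero (e2 A)]
    congr 1
    ext k
    simp

theorem rho_scal (c : A) : rho (c • (1 : Matrix (Fin N) (Fin N) A)) = sr c • 1 := by
  rw [rho, Ps_scal, smul_smul]
  rfl

theorem rhoI_scal (c : A) : rhoI (c • (1 : Matrix (Fin N) (Fin N) A)) = sI c • 1 := by
  rw [rhoI, Ps_scal, smul_smul]
  rfl

theorem sr_sr (c : A) : sr c * sr c = xs A - HahnSeries.C c := by
  have h := congrFun (congrFun (rho_mul_rho (N := 1) (of fun _ _ => c)) 0) 0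
  rw [Matrix.mul_apply, Fin.sum_univ_one] at h
  refine h.trans ?_
  simp [cm_apply]

theorem sr_sI (c : A) : sr c * sI c = 1 := by
  have h := congrFun (congrFun (rho_mul_rhoI (N := 1) (of fun _ _ => c)) 0) 0
  rw [Matrix.mul_apply, Fin.sum_univ_one] at h
  exact h

theorem ord_sI (c : A) : Ord 1 (sI c) := (lead_rhoI (N := 1) (of fun _ _ => c)).1 0 0

theorem coeff_sI (c : A) : (sI c).coeff 1 = 1 := (lead_rhoI (N := 1) (of fun _ _ => c)).2 0 0

theorem ys_fac (e : Rt E) : ys E A * ys E A = (xs A - HahnSeries.C (ea e A)) *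
    (xs A ^ 2 + HahnSeries.C (ea e A) * xs A + HahnSeries.C (da e A - 2 * ea e A ^ 2)) := by
  have h := congrArg (HahnSeries.C : A →+* Ls A) (ea_rt (A := A) e)
  have h' := congrArg (HahnSeries.C : A →+* Ls A) (da_eq (A := A) e)
  simp only [fv, gv, map_add, map_mul, map_pow, map_zero] at h h'
  rw [ys_sq, map_sub, map_mul, map_pow, map_ofNat, h', cc, cc]
  linear_combination h

/-- A projector `π` and a square root `Z` of `z (1 - π)`. -/
structure PZ (π Z : Matrix (Fin N) (Fin N) A) (z : A) : Prop where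
  pp : π * π = π
  pz : π * Z = 0
  zp : Z * π = 0
  zz : Z * Z = z • (1 - π)

theorem PZ.neg {π Z : Matrix (Fin N) (Fin N) A} {z : A} (h : PZ π Z z) : PZ π (-Z) z :=
  ⟨h.pp, by rw [mul_neg, h.pz, neg_zero], by rw [neg_mul, h.zp, neg_zero],
    by rw [neg_mul_neg, h.zz]⟩

/-- The element `a π + b (1 - π) + c Z`. -/
def T3 (π Z : Matrix (Fin N) (Fin N) A) (a b c : Ls A) : Matrix (Fin N) (Fin N) (Ls A) :=
  a • cm π + b • (1 - cm π) + c • cm Z

variable {π Z : Matrix (Fin N) (Fin N) A} {z : A}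

theorem T3_mul (h : PZ π Z z) (a b c a' b' c' : Ls A) : T3 π Z a b c * T3 π Z a' b' c' =
    T3 π Z (a * a') (b * b' + HahnSeries.C z * (c * c')) (b * c' + c * b') := by
  have h1 : cm π * cm π = cm π := by rw [← cm_mul, h.pp]
  have h2 : cm π * cm Z = 0 := by rw [← cm_mul, h.pz, cm_zero]
  have h3 : cm Z * cm π = 0 := by rw [← cm_mul, h.zp, cm_zero]
  have h4 : cm Z * cm Z = (HahnSeries.C z : Ls A) • (1 - cm π) := by
    rw [← cm_mul, h.zz, cm_smul, cm_sub, cm_one]
  simp only [T3, mul_add, add_mul, mul_sub, sub_mul, smul_mul_assoc, mul_smul_comm, one_mul,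
    mul_one, h1, h2, h3, h4]
  module

theorem T3_add (a b c a' b' c' : Ls A) :
    T3 π Z a b c + T3 π Z a' b' c' = T3 π Z (a + a') (b + b') (c + c') := by
  simp only [T3]
  module

theorem T3_smul (w a b c : Ls A) : w • T3 π Z a b c = T3 π Z (w * a) (w * b) (w * c) := by
  simp only [T3]
  module

theorem T3_neg (a b c : Ls A) : T3 π (-Z) a b c = T3 π Z a b (-c) := by
  simp only [T3, cm_neg]
  module

theorem T3_one : T3 π Z 1 1 0 = 1 := by
  simp only [T3]
  module

theorem T3_congr {a b c a' b' c' : Ls A} (h1 : a = a') (h2 : b = b') (h3 : c = c') :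
    T3 π Z a b c = T3 π Z a' b' c' := by rw [h1, h2, h3]

theorem T3_ent {a b c : Ls A} (h1 : a ∈ Px A) (h2 : b ∈ Px A) (h3 : c ∈ Px A) :
    Ent (Px A) (T3 π Z a b c) :=
  (((ent_cm π).smul h1).add ((ent_one.sub (ent_cm π)).smul h2)).add ((ent_cm Z).smul h3)

theorem T3_adj {F : Matrix (Fin N) (Fin N) A} (h1 : πᵀ * F = F * π) (h2 : Zᵀ * F = -(F * Z))
    (a b c : Ls A) : (T3 π Z a b c)ᵀ * cm F = cm F * T3 π Z a b (-c) := by
  have e1 : (cm π)ᵀ * cm F = cm F * cm π := by rw [cm_transpose, ← cm_mul, h1, cm_mul]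
  have e2 : (cm Z)ᵀ * cm F = -(cm F * cm Z) := by
    rw [cm_transpose, ← cm_mul, h2, cm_neg, cm_mul]
  simp only [T3, transpose_add, transpose_smul, transpose_sub, transpose_one, mul_add, add_mul,
    mul_sub, sub_mul, smul_mul_assoc, mul_smul_comm, one_mul, mul_one, e1, e2]
  module

theorem split (hp : π * π = π) (R : Matrix (Fin N) (Fin N) A → Matrix (Fin N) (Fin N) (Ls A))
    (r : A → Ls A) (h1 : ∀ {X X' H : Matrix (Fin N) (Fin N) A}, H * X = X' * H →
      cm H * R X = R X' * cm H) (h2 : ∀ c, R (c • 1) = r c • 1) (c x : A) :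
    R (c • π + x • (1 - π)) = T3 π Z (r c) (r x) 0 := by
  have e1 := h1 (H := π) (X := c • π + x • (1 - π)) (X' := c • 1) (by
    simp only [mul_add, mul_sub, smul_mul_assoc, mul_smul_comm, one_mul, mul_one, hp]
    module)
  have e2 := h1 (H := 1 - π) (X := c • π + x • (1 - π)) (X' := x • 1) (by
    simp only [mul_add, mul_sub, sub_mul, smul_mul_assoc, mul_smul_comm, one_mul, mul_one, hp]
    module)
  rw [h2, smul_mul_assoc, one_mul] at e1 e2
  rw [cm_sub, cm_one] at e2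
  rw [T3, ← e1, ← e2, zero_smul, add_zero, ← add_mul, add_sub_cancel, one_mul]

theorem rho_T3 (hp : π * π = π) (c x : A) :
    rho (c • π + x • (1 - π)) = T3 π Z (sr c) (sr x) 0 :=
  split hp rho sr rho_inter rho_scal c x

theorem sig_T3 (h : PZ π Z z) (c x k : A) : sig E (c • π + x • (1 - π)) (k • Z) =
    T3 π Z (ys E A * sI c) (ys E A * sI x) (HahnSeries.C k * sI x) := by
  have e : ys E A • 1 + cm (k • Z) = T3 π Z (ys E A) (ys E A) (HahnSeries.C k) := by
    simp only [T3, cm_smul]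
    module
  rw [sig, split (Z := Z) h.pp rhoI sI rhoI_inter rhoI_scal, e, T3_mul h]
  exact T3_congr rfl (by ring) (by ring)

theorem maps {S S' R R' W B1 B2 B3 B4 : Matrix (Fin N) (Fin N) (Ls A)}
    (h1 : W * S = R * B1 + R' * B2) (h2 : W * S' = R * B3 + R' * B4) (e1 : Ent (Px A) B1)
    (e2 : Ent (Px A) B2) (e3 : Ent (Px A) B3) (e4 : Ent (Px A) B4) {m : Fin N → Ls A}
    (hm : m ∈ Lat S S') : W *ᵥ m ∈ Lat R R' := by
  obtain ⟨u, v, hu, hv, rfl⟩ := hm
  refine ⟨B1 *ᵥ u + B3 *ᵥ v, B2 *ᵥ u + B4 *ᵥ v,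
    fun i => (Px A).add_mem (e1.mulVec hu i) (e3.mulVec hv i),
    fun i => (Px A).add_mem (e2.mulVec hu i) (e4.mulVec hv i), ?_⟩
  simp only [mulVec_add, mulVec_mulVec, h1, h2, add_mulVec]
  abel

end

end Vale.Agent.P286ET8
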