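import Vale.Agent.P286ET8.Kit

/-!
# The comparison of the charts `b` and `n`
-/

set_option linter.unusedSectionVars false

namespace Vale.Agent.P286ET8

open Matrix Vale.Agent.P286 Vale.Agent.P286E Vale.Agent.P286EN Vale.Agent.P286EB

noncomputable section

attribute [-instance] HahnSeries.powerSeriesAlgebra

variable {A : Type} [CommRing A] [Algebra ℂ A] {N : ℕ} {E : Ell} (e : Rt E)
  {π Z : Matrix (Fin N) (Fin N) A} {x0 x1 : A}

/-- The lattice of the point with the coordinate `x`. -/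
def UU (π Z : Matrix (Fin N) (Fin N) A) (x : A) : Submodule A (Fin N → Ls A) :=
  U E (ea e A • π + x • (1 - π)) ((x - ea e A) • Z)

/-- The quotient `f(x) / (x - e)`. -/
def gX (A : Type) [CommRing A] [Algebra ℂ A] : Ls A :=
  xs A ^ 2 + HahnSeries.C (ea e A) * xs A + HahnSeries.C (da e A - 2 * ea e A ^ 2)

theorem gX_mem : gX e A ∈ Px A :=
  (Px A).add_mem ((Px A).add_mem ((Px A).pow_mem xs_mem_Px 2)
    ((Px A).mul_mem (C_mem_Px _) xs_mem_Px)) (C_mem_Px _)

theorem sr_eq (c : A) : sr c = (xs A - HahnSeries.C c) * sI c := by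
  linear_combination (sI c) * sr_sr c - sr c * sr_sI c

theorem sI_sq (c : A) : (xs A - HahnSeries.C c) * sI c * sI c = 1 := by
  rw [← sr_eq, sr_sI]

theorem key (h : PZ π Z (x0 + x1 + ea e A)) (hd : (x0 - ea e A) * (x1 - ea e A) = da e A)
    {m : Fin N → Ls A} (hm : m ∈ UU e π (-Z) x1) :
    T3 π Z 1 0 0 *ᵥ m ∈ UU e π Z x0 ∧
    T3 π Z 0 (sI x1 * sI x0 * ys E A) (sI x1 * sI x0 * (xs A - HahnSeries.C (ea e A))) *ᵥ m ∈
      UU e π Z x0 ∧
    T3 π Z 0 (sI x1 * sI x0 * gX e A) (sI x1 * sI x0 * ys E A) *ᵥ m ∈ UU e π Z x0 := by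
  unfold UU U at hm ⊢
  rw [rho_T3 (Z := Z) h.pp, sig_T3 h.neg, T3_neg] at hm
  rw [rho_T3 (Z := Z) h.pp, sig_T3 h]
  have hy := ys_fac (A := A) e
  have h0 := sr_eq x0
  have h1 := sr_sI x1
  have h2 := sI_sq x1
  have p0 := (Px A).zero_mem
  have p1 := (Px A).one_mem
  have px : ∀ c : A, xs A + HahnSeries.C c ∈ Px A := fun c => (Px A).add_mem xs_mem_Px (C_mem_Px c)
  unfold gX
  rw [← hd] at hy ⊢
  simp only [map_sub, map_mul, map_pow, map_ofNat] at hy ⊢
  refine ⟨maps ?_ ?_ (T3_ent (π := π) (Z := Z) p1 p0 p0) (T3_ent (π := π) (Z := Z) p0 p0 p0)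
      (T3_ent (π := π) (Z := Z) p0 p0 p0) (T3_ent (π := π) (Z := Z) p1 p0 p0) hm,
    maps ?_ ?_ (T3_ent (π := π) (Z := Z) p0 p0 p1) (T3_ent (π := π) (Z := Z) p0 p1 p0)
      (T3_ent (π := π) (Z := Z) p0 (px (x0 + x1)) p0) (T3_ent (π := π) (Z := Z) p0 p0 p1) hm,
    maps ?_ ?_ (T3_ent (π := π) (Z := Z) p0 (px (x0 + ea e A)) p0)
      (T3_ent (π := π) (Z := Z) p0 p0 p1) (T3_ent (π := π) (Z := Z) p0 p0 (px (2 * ea e A)))
      (T3_ent (π := π) (Z := Z) p0 (px (x1 + ea e A)) p0) hm⟩ <;>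
    rw [T3_mul h, T3_mul h, T3_mul h, T3_add] <;>
    simp only [map_add, map_sub, map_mul, map_ofNat, h0] <;>
    generalize (HahnSeries.C x0 : Ls A) = a0 at * <;>
    generalize (HahnSeries.C x1 : Ls A) = a1 at * <;>
    generalize (HahnSeries.C (ea e A) : Ls A) = c at *
  · exact T3_congr (by ring) (by ring) (by ring)
  · exact T3_congr (by ring) (by ring) (by ring)
  · exact T3_congr (by ring) (by linear_combination (sI x0 * ys E A) * h1)
      (by linear_combination (sI x0 * (xs A - c)) * h1)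
  · exact T3_congr (by ring) (by
      linear_combination (sI x0 * sI x1 ^ 2) * hy + (sI x0 * (xs A - c) * (xs A + a1 + c)) * h2)
      (by linear_combination (sI x0 * ys E A) * h2)
  · exact T3_congr (by ring) (by
      linear_combination (sI x0 * (xs A ^ 2 + c * xs A + ((a0 - c) * (a1 - c) - 2 * c ^ 2))) * h1)
      (by linear_combination (sI x0 * ys E A) * h1)
  · exact T3_congr (by ring) (by linear_combination (sI x0 * ys E A * (xs A + a1 + c)) * h2) (by
      linear_combination (sI x0 * sI x1 ^ 2) * hy +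
        (sI x0 * (xs A ^ 2 + c * xs A + ((a0 - c) * (a1 - c) - 2 * c ^ 2))) * h2)

/-- The comparison. -/
def gg (π Z : Matrix (Fin N) (Fin N) A) (x0 x1 : A) : Matrix (Fin N) (Fin N) (Ls A) :=
  T3 π Z 1 (sI (ea e A) * sI x1 * sI x0 * ys E A)
    (sI (ea e A) * sI x1 * sI x0 * (xs A - HahnSeries.C (ea e A)))

theorem gg_mul (h : PZ π Z (x0 + x1 + ea e A)) (hd : (x0 - ea e A) * (x1 - ea e A) = da e A) :
    gg e π Z x0 x1 * gg e π (-Z) x1 x0 = 1 := by
  have hy := ys_fac (A := A) e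
  have h0 := sI_sq x0
  have h1 := sI_sq x1
  have h2 := sI_sq (ea e A)
  rw [← hd] at hy
  simp only [map_sub, map_mul, map_pow, map_ofNat] at hy
  rw [gg, gg, T3_neg, T3_mul h, ← T3_one (π := π) (Z := Z)]
  simp only [map_add]
  refine T3_congr (by ring) ?_ (by ring)
  generalize (HahnSeries.C x0 : Ls A) = a0 at *
  generalize (HahnSeries.C x1 : Ls A) = a1 at *
  generalize (HahnSeries.C (ea e A) : Ls A) = c at *
  linear_combination (sI (ea e A) * sI x1 * sI x0) ^ 2 * hy + h2 +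
    ((xs A - c) * sI (ea e A) * sI (ea e A)) * h1 +
    ((xs A - c) * sI (ea e A) * sI (ea e A)) * ((xs A - a1) * sI x1 * sI x1) * h0

theorem mem_tw {P : Matrix (Fin N) (Fin N) (Ls A)} {M : Submodule A (Fin N → Ls A)}
    {m : Fin N → Ls A} : m ∈ tw e P M ↔ (1 - P) *ᵥ m ∈ M ∧ (sr (ea e A) • P) *ᵥ m ∈ M ∧
      ((ys E A * sI (ea e A)) • P) *ᵥ m ∈ M := and_assoc

theorem stab_UU (x : A) : Stab (Px A) (UU e π Z x) := stab_lat _ _

theorem bez : ∃ α ∈ Px A, ∃ β ∈ Px A,
    α * (xs A - HahnSeries.C (ea e A)) + β * gX e A = 1 := by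
  obtain ⟨u, hu⟩ := (da_unit (A := A) e).exists_left_inv
  have h := congrArg (HahnSeries.C : A →+* Ls A) hu
  refine ⟨-(HahnSeries.C u * (xs A + HahnSeries.C (2 * ea e A))), (Px A).neg_mem ((Px A).mul_mem
    (C_mem_Px _) ((Px A).add_mem xs_mem_Px (C_mem_Px _))), _, C_mem_Px u, ?_⟩
  simp only [gX, map_mul, map_sub, map_pow, map_ofNat, map_one] at h ⊢
  linear_combination h

theorem cm_T3 : cm π = T3 π Z 1 0 0 := by simp [T3]

theorem one_sub_T3 : 1 - cm π = T3 π Z 0 1 0 := by simp [T3]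

theorem fwd (h : PZ π Z (x0 + x1 + ea e A)) (hd : (x0 - ea e A) * (x1 - ea e A) = da e A)
    {m : Fin N → Ls A} (hm : m ∈ tw e (cm 1) (UU e π (-Z) x1)) :
    gg e π Z x0 x1 *ᵥ m ∈ tw e (cm π) (UU e π Z x0) := by
  obtain ⟨-, h1, h2⟩ := (mem_tw e).1 hm
  obtain ⟨α, hα, β, hβ, hb⟩ := bez (A := A) e
  rw [cm_one, ← T3_one (π := π) (Z := Z), T3_smul] at h1 h2
  have hy := ys_fac (A := A) e
  rw [← gX] at hy
  have h3 := sr_eq (ea e A)
  have h4 := sI_sq (ea e A)
  rw [mem_tw, one_sub_T3 (Z := Z), cm_T3 (Z := Z), T3_smul, T3_smul]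
  simp only [mulVec_mulVec, gg, T3_mul h]
  refine ⟨?_, ?_, ?_⟩
  · have := (UU e π Z x0).add_mem (stab_UU e x0 α hα _ (key e h hd h1).2.1)
      (stab_UU e x0 β hβ _ (key e h hd h2).2.2)
    simp only [mulVec_mulVec, T3_mul h, ← smul_mulVec, T3_smul, ← add_mulVec, T3_add] at this
    convert this using 2
    refine T3_congr (by ring) ?_ ?_
    · rw [h3]
      linear_combination (-(sI (ea e A) * sI x1 * sI x0 * ys E A)) * hb
    · rw [h3]
      linear_combination (-(sI (ea e A) * sI x1 * sI x0 * (xs A - HahnSeries.C (ea e A)))) * hb -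
        (β * sI x1 * sI x0 * sI (ea e A)) * hy
  · have := (key e h hd h1).1
    simp only [mulVec_mulVec, T3_mul h] at this
    convert this using 2
    exact T3_congr (by ring) (by ring) (by ring)
  · have := (key e h hd h2).1
    simp only [mulVec_mulVec, T3_mul h] at this
    convert this using 2
    exact T3_congr (by ring) (by ring) (by ring)

theorem bwd (h : PZ π Z (x0 + x1 + ea e A)) (hd : (x0 - ea e A) * (x1 - ea e A) = da e A)
    {m : Fin N → Ls A} (hm : m ∈ tw e (cm π) (UU e π (-Z) x1)) :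
    gg e π Z x0 x1 *ᵥ m ∈ tw e (cm 1) (UU e π Z x0) := by
  obtain ⟨h0, h1, h2⟩ := (mem_tw e).1 hm
  rw [one_sub_T3 (Z := Z)] at h0
  rw [cm_T3 (Z := Z), T3_smul] at h1 h2
  have hy := ys_fac (A := A) e
  rw [← gX] at hy
  have h3 := sr_sI (ea e A)
  have h4 := sI_sq (ea e A)
  rw [mem_tw, cm_one, sub_self, zero_mulVec, ← T3_one (π := π) (Z := Z), T3_smul, T3_smul]
  simp only [mulVec_mulVec, gg, T3_mul h]
  refine ⟨zero_mem _, ?_, ?_⟩
  · have := (UU e π Z x0).add_mem (key e h hd h1).1 (key e h hd h0).2.1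
    simp only [mulVec_mulVec, T3_mul h, ← add_mulVec, T3_add] at this
    convert this using 2
    exact T3_congr (by ring) (by linear_combination (sI x1 * sI x0 * ys E A) * h3)
      (by linear_combination (sI x1 * sI x0 * (xs A - HahnSeries.C (ea e A))) * h3)
  · have := (UU e π Z x0).add_mem (key e h hd h2).1 (key e h hd h0).2.2
    simp only [mulVec_mulVec, T3_mul h, ← add_mulVec, T3_add] at this
    convert this using 2
    exact T3_congr (by ring) (by
      linear_combination (sI x1 * sI x0 * sI (ea e A) ^ 2) * hy + (sI x1 * sI x0 * gX e A) * h4)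
      (by linear_combination (sI x1 * sI x0 * ys E A) * h4)

theorem lead_gg : Lead 0 (gg e π Z x0 x1) 1 := by
  have h2 := (ord_sI (ea e A)).mul' (ord_sI x1)
  have h3 := h2.mul' (ord_sI x0)
  have c3 : (sI (ea e A) * sI x1 * sI x0).coeff (1 + 1 + 1) = 1 := by
    rw [coeff_mul_lead h2 (ord_sI x0), coeff_mul_lead (ord_sI _) (ord_sI x1)]
    simp only [coeff_sI, mul_one]
  have c0 : (sI (ea e A) * sI x1 * sI x0 * ys E A).coeff (1 + 1 + 1 + -3) = 1 := by
    rw [coeff_mul_lead h3 (ord_ys E), c3, ys_coeff, mul_one]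
  have l1 : Lead 0 (1 - cm π) (1 - π) :=
    ⟨lead_one.ord.sub (lead_cm π).ord, fun i j => by
      rw [Matrix.sub_apply, HahnSeries.coeff_sub, lead_one.2, (lead_cm π).2, Matrix.sub_apply]⟩
  have l2 := (Lead.smul (h3.mul' (ord_ys E)) c0 l1).cast (b := 0) (by norm_num) rfl
  have o3 : OrdM (0 + 1) ((sI (ea e A) * sI x1 * sI x0 * (xs A - HahnSeries.C (ea e A))) • cm Z) :=
    (OrdM.smul (h3.mul' (ord_xs.sub ((Ord.C _).mono (by norm_num)))) (lead_cm Z).ord).mono
      (by norm_num)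
  refine Lead.add_ord ?_ o3
  rw [one_smul]
  refine ⟨(lead_cm π).ord.add l2.ord, fun i j => ?_⟩
  rw [Matrix.add_apply, HahnSeries.coeff_add, (lead_cm π).2, l2.2, ← Matrix.add_apply,
    add_sub_cancel]

theorem ht_adj {G : Grp} (hG : G.Ok) (ξ : Fin 3 → A) :
    (G.ht ξ)ᵀ * G.F.map (algebraMap ℂ A) = -(G.F.map (algebraMap ℂ A) * G.ht ξ) := by
  rw [eq_neg_iff_add_eq_zero, Grp.ht, transpose_sum, Matrix.sum_mul, Matrix.mul_sum,
    ← Finset.sum_add_distrib]
  refine Finset.sum_eq_zero fun i _ => ?_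
  rw [transpose_smul, Matrix.smul_mul, Matrix.mul_smul, ← smul_add, ← transpose_map,
    ← Matrix.map_mul, ← Matrix.map_mul, ← Matrix.map_add _ (map_add _), hG.lie,
    Matrix.map_zero _ (map_zero _), smul_zero]

theorem ht_smul {G : Grp} (c : A) (ξ : Fin 3 → A) : G.ht (c • ξ) = c • G.ht ξ := by
  simp only [Grp.ht, Pi.smul_apply, smul_eq_mul, mul_smul, Finset.smul_sum]

theorem cube {π : Matrix (Fin N) (Fin N) A} (hp : π * π = π) (x : A) :
    (ea e A • π + x • (1 - π)) ^ 3 + E.a • (ea e A • π + x • (1 - π)) + E.b • 1 =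
      fv E x • (1 - π) := by
  have h := ea_rt (A := A) e
  have h1 : (ea e A • π + x • (1 - π)) ^ 3 + E.a • (ea e A • π + x • (1 - π)) + E.b • 1 =
      fv E x • (1 - π) + fv E (ea e A) • π := by
    simp only [fv, pow_three, mul_add, add_mul, mul_sub, sub_mul, smul_mul_assoc, mul_smul_comm,
      one_mul, mul_one, hp, ← algebraMap_smul A E.a, ← algebraMap_smul A E.b]
    module
  rw [h1, h, zero_smul, add_zero]

theorem trn' (hF : FAMM) : TRN := by
  intro E e G hG A _ _ x ξ π hp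
  obtain ⟨hM, pp, -, pY, -⟩ := hF E e G hG A .n x ξ π hp
  have hf := hp.un rfl
  have pr := hp.pr (by decide)
  have hw : (x - ea e A) * Ring.inverse (x - ea e A) = 1 :=
    Ring.mul_inverse_cancel _ (unit_sub e hf)
  have hg : IsUnit (gv e x) := isUnit_of_mul_isUnit_right (fv_fac e x ▸ hf)
  have yy : G.ht ξ * G.ht ξ = fv E x • (1 - π) := hM.eqn.trans (cube e pp x)
  have e1 : kx e .b .n x = ea e A + da e A * Ring.inverse (x - ea e A) := rfl
  have e2 : kc e .b .n x = -(da e A * Ring.inverse (x - ea e A) ^ 2) := rfl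
  have e3 : trn e G .b .n x ξ π = cm π + (sI (ea e A) * sI (kx e .b .n x) * sI x) • ((ys E A • 1 +
      ((xs A - HahnSeries.C (ea e A)) * HahnSeries.C (Ring.inverse (x - ea e A))) • cm (G.ht ξ)) *
        (1 - cm π)) := rfl
  generalize Ring.inverse (x - ea e A) = w at hw e1 e2 e3
  generalize kx e .b .n x = x1 at e1 e3 ⊢
  generalize kc e .b .n x = k at e2 ⊢
  have hd : (x - ea e A) * (x1 - ea e A) = da e A := by
    rw [e1]
    linear_combination da e A * hw
  have hde := da_eq (A := A) e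
  have g1 : gv e x1 = da e A * w ^ 2 * gv e x := by
    rw [e1]
    simp only [gv] at hde ⊢
    linear_combination (da e A * w ^ 2 - 1) * hde -
      da e A * (1 + (x - ea e A) * w + 3 * ea e A * w) * hw
  have f1 : fv E x1 = k ^ 2 * fv E x := by
    rw [fv_fac e x1, fv_fac e x, g1, e1, e2]
    linear_combination (-(da e A ^ 2 * w ^ 3 * gv e x)) * hw
  have u1 : IsUnit (gv e x1) :=
    g1 ▸ ((da_unit e).mul ((IsUnit.of_mul_eq_one_right _ hw).pow 2)).mul hg
  have h : PZ π (w • G.ht ξ) (x + x1 + ea e A) := by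
    refine ⟨pp, by rw [mul_smul_comm, pY, pr.ker, smul_zero],
      by rw [smul_mul_assoc, pr.ker, smul_zero], ?_⟩
    rw [smul_mul_smul_comm, yy, smul_smul, fv_fac e x, e1]
    congr 1
    simp only [gv] at hde ⊢
    linear_combination (w * (x ^ 2 + ea e A * x + (ea e A ^ 2 + algebraMap ℂ A E.a)) +
      x + 2 * ea e A) * hw - w * hde
  have h' : PZ π (-(w • G.ht ξ)) (x1 + x + ea e A) := add_comm x x1 ▸ h.neg
  have hd' := (mul_comm _ _).trans hd
  have eg : trn e G .b .n x ξ π = gg e π (w • G.ht ξ) x x1 := by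
    have : cm (G.ht ξ) * cm π = 0 := by rw [← cm_mul, pr.ker, cm_zero]
    simp only [e3, gg, T3, cm_smul, mul_sub, add_mul, smul_mul_assoc, one_mul, mul_one, this]
    module
  have en : FM e G .n x ξ π = tw e (cm π) (UU e π (w • G.ht ξ) x) := by
    rw [UU, smul_smul, hw, one_smul]
    rfl
  have eb : FM e G .b x1 (k • ξ) 1 = tw e (cm 1) (UU e π (-(w • G.ht ξ)) x1) := by
    have a1 : G.ht (k • ξ) = (x1 - ea e A) • -(w • G.ht ξ) := by
      rw [ht_smul, e1, e2]
      module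
    have a2 : Xm e G .b x1 (k • ξ) 1 = ea e A • π + x1 • (1 - π) := by
      rw [Xm, ht_smul, smul_mul_smul_comm, yy, smul_smul, smul_smul, mul_assoc, ← pow_two, ← f1,
        fv_fac e x1, mul_left_comm, Ring.inverse_mul_cancel _ u1]
      module
    rw [FM, UU, a2, a1]
  have i1 := gg_mul e h hd
  have i2 := gg_mul e h' hd'
  rw [neg_neg] at i2
  have form : (gg e π (w • G.ht ξ) x x1)ᵀ * cm (G.F.map (algebraMap ℂ A)) *
      gg e π (w • G.ht ξ) x x1 = cm (G.F.map (algebraMap ℂ A)) := by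
    conv_lhs => rw [gg, T3_adj pr.adj (by
      rw [transpose_smul, smul_mul_assoc, ht_adj (Grp.ok_of hG), mul_smul_comm, smul_neg]),
      ← T3_neg, mul_right_comm (sI _) (sI x1), ← gg, mul_right_comm (sI _) (sI x), ← gg]
    rw [mul_assoc, i2, mul_one]
  have hdet : IsUnit (G.F.map (algebraMap ℂ A)).det := by
    rw [← RingHom.mapMatrix_apply, ← RingHom.map_det, (Grp.ok_of hG).det, map_one]
    exact isUnit_one
  rw [eg, en, eb]
  refine ⟨⟨?_, fun _ => ⟨u1, rfl⟩, fun h => (by cases h), fun h => (h rfl).elim⟩,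
    ⟨det_eq_one (lead_gg e) hdet form, form⟩, (lead_gg e).ord, le_antisymm ?_ fun m hm => ?_⟩
  · rw [smul_dotProduct, dotProduct_smul, hp.sq, f1, smul_eq_mul, smul_eq_mul]
    ring
  · rintro _ ⟨m, hm, rfl⟩
    exact fwd e h hd hm
  · refine ⟨_, bwd e h' hd' (by rwa [neg_neg]), ?_⟩
    rw [act_apply, mulVec_mulVec, i1, one_mulVec]

end

end Vale.Agent.P286ET8
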